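import Claimed.Agent.R316.Pack018
import Claimed.Agent.R316.Pack016
import Claimed.Agent.R316.B5.Mfd

/-!
# Row 316, BP-S7-6 (sub-captain helper126): Lemma 7.6 (psh Liouville), charts.tex l. 826-880

No `sorry` in this file.  External input: `sv3` (`Base/SV/Api.lean`: `log d(o,·)` has a smooth upper support with a negative Levi direction), `PshOn.qf_levi_test_nonneg` (`Base/Rich/Visc.lean`), `CMfd.IsPshOn.usc`, `CMfd.IsPshOn.eq_of_forall_le` (`B5/Mfd.lean`), the `hdist` API (`Base/Metric`).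

`m r = ballMax … r = max_{hcball o r} v`.
1. `v` is usc on the carrier; `m` is attained, nondecreasing (`l6_exists_max`, `l6_ballMax_*`).
2. `l6_annulus`: `v ≤ m r₁ + slope (log d(o,·) - log r₁)` on the annulus: an interior positive maximum of `v - H ∘ d` contradicts `sv3`.
3. `l6_const_of_max`: strong maximum principle (B5).
4. `l6_three_circles`, `l6_ballMax_const` (`r₂ → ∞`), `l6_max_at_o`, `st76`.
-/

set_option autoImplicit false
set_option linter.unusedSectionVars false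
open scoped ContDiff ComplexOrder Topology

namespace Claimed.Agent.R316

section

variable {V : Type} [NormedAddCommGroup V] [NormedSpace ℝ V] [FiniteDimensional ℝ V]
variable {ι : Type} [Fintype ι] [DecidableEq ι]
variable {𝓜 : CMfd V ι} {g : HFam V ι} {v : V → ℝ} {o : V}

/-- the maximum of `v` over the closed ball of radius `r` about `o`. -/
noncomputable def ballMax (𝓜 : CMfd V ι) (g : HFam V ι) (v : V → ℝ) (o : V) (r : ℝ) : ℝ :=
  sSup (v '' hcball 𝓜 g o r)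

theorem l6_usc (hv : 𝓜.IsPshOn Set.univ v) : UpperSemicontinuousOn v 𝓜.carrier := by
  simpa using CMfd.IsPshOn.usc isOpen_univ hv

theorem l6_hcball_subset (r : ℝ) : hcball 𝓜 g o r ⊆ 𝓜.carrier := fun _ hy => hy.1

theorem l6_o_mem (ho : o ∈ 𝓜.carrier) {r : ℝ} (hr : 0 ≤ r) : o ∈ hcball 𝓜 g o r :=
  ⟨ho, by rw [hdist_self ho]; exact hr⟩

theorem l6_exists_max (hv : 𝓜.IsPshOn Set.univ v) (hp : IsProperMetric 𝓜 g) (ho : o ∈ 𝓜.carrier)
    {r : ℝ} (hr : 0 ≤ r) : ∃ x ∈ hcball 𝓜 g o r, ∀ y ∈ hcball 𝓜 g o r, v y ≤ v x := by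
  obtain ⟨x, hx, hmax⟩ := ((l6_usc hv).mono (l6_hcball_subset r)).exists_isMaxOn
    ⟨o, l6_o_mem ho hr⟩ (hp o ho r)
  exact ⟨x, hx, fun y hy => hmax hy⟩

theorem l6_bddAbove (hv : 𝓜.IsPshOn Set.univ v) (hp : IsProperMetric 𝓜 g) (ho : o ∈ 𝓜.carrier)
    (r : ℝ) : BddAbove (v '' hcball 𝓜 g o r) := by
  rcases le_or_gt 0 r with hr | hr
  · obtain ⟨x, -, hmax⟩ := l6_exists_max hv hp ho hr
    exact ⟨v x, by rintro _ ⟨y, hy, rfl⟩; exact hmax y hy⟩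
  · refine ⟨0, ?_⟩
    rintro _ ⟨y, hy, rfl⟩
    exact absurd (hdist_nonneg 𝓜 g o y) (not_le.2 (hy.2.trans_lt hr))

theorem l6_le_ballMax (hv : 𝓜.IsPshOn Set.univ v) (hp : IsProperMetric 𝓜 g) (ho : o ∈ 𝓜.carrier)
    {r : ℝ} {y : V} (hy : y ∈ hcball 𝓜 g o r) : v y ≤ ballMax 𝓜 g v o r :=
  le_csSup (l6_bddAbove hv hp ho r) ⟨y, hy, rfl⟩

theorem l6_ballMax_eq (hv : 𝓜.IsPshOn Set.univ v) (hp : IsProperMetric 𝓜 g) (ho : o ∈ 𝓜.carrier)
    {r : ℝ} (hr : 0 ≤ r) : ∃ x ∈ hcball 𝓜 g o r, v x = ballMax 𝓜 g v o r := by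
  obtain ⟨x, hx, hmax⟩ := l6_exists_max hv hp ho hr
  refine ⟨x, hx, le_antisymm (l6_le_ballMax hv hp ho hx) ?_⟩
  refine csSup_le ⟨v x, x, hx, rfl⟩ ?_
  rintro _ ⟨y, hy, rfl⟩
  exact hmax y hy

theorem l6_ballMax_mono (hv : 𝓜.IsPshOn Set.univ v) (hp : IsProperMetric 𝓜 g)
    (ho : o ∈ 𝓜.carrier) {r r' : ℝ} (hr : 0 ≤ r) (hrr' : r ≤ r') :
    ballMax 𝓜 g v o r ≤ ballMax 𝓜 g v o r' := by
  obtain ⟨x, hx, he⟩ := l6_ballMax_eq hv hp ho hr
  rw [← he]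
  exact l6_le_ballMax hv hp ho (hcball_mono 𝓜 g o hrr' hx)

theorem l6_ballMax_le {C : ℝ} (hv : 𝓜.IsPshOn Set.univ v) (hp : IsProperMetric 𝓜 g)
    (ho : o ∈ 𝓜.carrier) (hC : ∀ x ∈ 𝓜.carrier, v x ≤ C) {r : ℝ} (hr : 0 ≤ r) :
    ballMax 𝓜 g v o r ≤ C := by
  obtain ⟨x, hx, he⟩ := l6_ballMax_eq hv hp ho hr
  rw [← he]
  exact hC x hx.1

/-- comparison with a logarithmic barrier of positive slope. -/
theorem l6_annulus_pos (hk : IsKahler 𝓜 g) (hconn : IsConnected 𝓜.carrier)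
    (hp : IsProperMetric 𝓜 g) (hb : BisecPos 𝓜 g) (hv : 𝓜.IsPshOn Set.univ v) (ho : o ∈ 𝓜.carrier)
    {r₁ r₂ σ : ℝ} (h1 : 0 < r₁) (hσ : 0 < σ)
    (hσ2 : ballMax 𝓜 g v o r₂ ≤ ballMax 𝓜 g v o r₁ + σ * (Real.log r₂ - Real.log r₁))
    {x : V} (hx : x ∈ 𝓜.carrier) (hx1 : r₁ ≤ hdist 𝓜 g o x) (hx2 : hdist 𝓜 g o x ≤ r₂) :
    v x ≤ ballMax 𝓜 g v o r₁ + σ * (Real.log (hdist 𝓜 g o x) - Real.log r₁) := by
  have hm : IsMetric 𝓜 g := hk.toIsMetric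
  set d : V → ℝ := fun y => hdist 𝓜 g o y with hd
  set m₁ := ballMax 𝓜 g v o r₁ with hm₁
  have hdc : ContinuousOn d 𝓜.carrier := continuousOn_hdist_right hm hconn ho
  set 𝒜 : Set V := hcball 𝓜 g o r₂ ∩ d ⁻¹' Set.Ici r₁ with h𝒜
  have h𝒜M : 𝒜 ⊆ 𝓜.carrier := fun y hy => hy.1.1
  have h𝒜c : IsCompact 𝒜 := by
    have hK := hp o ho r₂
    exact hK.of_isClosed_subset ((hdc.mono (l6_hcball_subset r₂)).preimage_isClosed_of_isClosed
      hK.isClosed isClosed_Ici) Set.inter_subset_left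
  have hdpos : ∀ y ∈ 𝒜, 0 < d y := fun y hy => h1.trans_le hy.2
  -- the function `v - H ∘ d`
  have hHc : ContinuousOn (fun y => -(m₁ + σ * (Real.log (d y) - Real.log r₁))) 𝒜 := by
    refine (continuousOn_const.add (continuousOn_const.mul
      (((hdc.mono h𝒜M).log fun y hy => (hdpos y hy).ne').sub continuousOn_const))).neg
  have husc : UpperSemicontinuousOn
      (fun y => v y + -(m₁ + σ * (Real.log (d y) - Real.log r₁))) 𝒜 :=
    ((l6_usc hv).mono h𝒜M).add hHc.upperSemicontinuousOn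
  have hx𝒜 : x ∈ 𝒜 := ⟨⟨hx, hx2⟩, hx1⟩
  obtain ⟨xs, hxs, hmax⟩ := husc.exists_isMaxOn ⟨x, hx𝒜⟩ h𝒜c
  by_contra hcon
  rw [not_le] at hcon
  set μ : ℝ := v xs + -(m₁ + σ * (Real.log (d xs) - Real.log r₁)) with hμ
  have hμpos : 0 < μ := by
    have h2 : v x + -(m₁ + σ * (Real.log (d x) - Real.log r₁)) ≤ μ := hmax hx𝒜
    have h3 : m₁ + σ * (Real.log (d x) - Real.log r₁) < v x := hcon
    linarith
  have hxsM : xs ∈ 𝓜.carrier := h𝒜M hxs
  have hlt1 : r₁ < d xs := by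
    refine lt_of_le_of_ne hxs.2 fun he => ?_
    have h2 : v xs ≤ m₁ := l6_le_ballMax hv hp ho ⟨hxsM, he.symm.le⟩
    rw [hμ, ← he, sub_self, mul_zero, add_zero] at hμpos
    linarith
  have hlt2 : d xs < r₂ := by
    refine lt_of_le_of_ne hxs.1.2 fun he => ?_
    have h2 : v xs ≤ ballMax 𝓜 g v o r₂ := l6_le_ballMax hv hp ho hxs.1
    have he' : d xs = r₂ := he
    rw [hμ, he'] at hμpos
    linarith
  have hds : 0 < d xs := h1.trans hlt1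
  have hne : o ≠ xs := by
    rintro rfl
    have : d o = 0 := hdist_self ho
    linarith
  obtain ⟨s, hs, hneg⟩ := sv3 hk hconn hb ho hxsM hne (hp o ho _)
  obtain ⟨Φ, U, hΦ, z, hz, hzx⟩ := 𝓜.cover xs hxsM
  obtain ⟨a, ha⟩ := hneg Φ U hΦ z hz hzx
  have hpar := 𝓜.isParam hΦ
  have hUo : IsOpen U := CMfd.isOpen_dom hΦ
  have hsz : s (Φ z) = d xs := by rw [hzx]; exact hs.eq
  have hs2 : ContDiffAt ℝ 2 (fun w => s (Φ w)) z :=
    (((hs.smooth Φ U hΦ).contDiffAt (hUo.mem_nhds hz)).of_le (WithTop.coe_le_coe.2 le_top))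
  have hlog : ContDiffAt ℝ 2 (fun w => Real.log (s (Φ w))) z :=
    hs2.log (by rw [hsz]; exact hds.ne')
  set q : CE ι → ℝ := fun w => σ * Real.log (s (Φ w)) + (μ + m₁ - σ * Real.log r₁) with hq
  have hq2 : ContDiffAt ℝ 2 q z := (contDiffAt_const.mul hlog).add contDiffAt_const
  -- neighbourhood statements
  have hnear : ∀ᶠ y in 𝓝[𝓜.carrier] xs, y ∈ 𝒜 ∧ d y ≤ s y := by
    have h2 : ∀ᶠ y in 𝓝[𝓜.carrier] xs, d y ∈ Set.Ioo r₁ r₂ :=
      (hdc xs hxsM) (Ioo_mem_nhds hlt1 hlt2)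
    filter_upwards [h2, hs.le, self_mem_nhdsWithin] with y hy1 hy2 hy3
    exact ⟨⟨⟨hy3, hy1.2.le⟩, hy1.1.le⟩, hy2⟩
  have hnear' : ∀ᶠ w in 𝓝 z, Φ w ∈ 𝒜 ∧ d (Φ w) ≤ s (Φ w) := by
    have : Filter.Tendsto Φ (𝓝 z) (𝓝[𝓜.carrier] xs) := by
      rw [← hzx, ← hpar.map_nhds_eq hz]
      exact Filter.tendsto_map
    exact this.eventually hnear
  have hle : ∀ᶠ w in 𝓝 z, (v ∘ Φ) w ≤ q w := by
    filter_upwards [hnear'] with w hw
    have h2 : v (Φ w) + -(m₁ + σ * (Real.log (d (Φ w)) - Real.log r₁)) ≤ μ := hmax hw.1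
    have h3 : Real.log (d (Φ w)) ≤ Real.log (s (Φ w)) := Real.log_le_log (hdpos _ hw.1) hw.2
    have h4 := mul_le_mul_of_nonneg_left h3 hσ.le
    show v (Φ w) ≤ σ * Real.log (s (Φ w)) + (μ + m₁ - σ * Real.log r₁)
    linarith
  have heq : q z = (v ∘ Φ) z := by
    show σ * Real.log (s (Φ z)) + (μ + m₁ - σ * Real.log r₁) = v (Φ z)
    rw [hsz, hzx, hμ]
    ring
  have hpsh : PshOn U (v ∘ Φ) := by simpa using hv Φ U hΦ
  have h0 := PshOn.qf_levi_test_nonneg hUo hpsh hz hq2 hle heq a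
  have hlevi : levi q z = ((σ : ℝ) : ℂ) • ddc (fun y => Real.log (s y)) Φ z := by
    rw [hq, levi_add_const, levi_const_mul σ hlog]
    rfl
  rw [hlevi, qf_smul] at h0
  have := mul_neg_of_pos_of_neg hσ ha
  linarith

theorem l6_annulus (hk : IsKahler 𝓜 g) (hconn : IsConnected 𝓜.carrier) (hp : IsProperMetric 𝓜 g)
    (hb : BisecPos 𝓜 g) (hv : 𝓜.IsPshOn Set.univ v) (ho : o ∈ 𝓜.carrier) {r₁ r₂ : ℝ}
    (h1 : 0 < r₁) (h12 : r₁ < r₂) {x : V} (hx : x ∈ 𝓜.carrier) (hx1 : r₁ ≤ hdist 𝓜 g o x)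
    (hx2 : hdist 𝓜 g o x ≤ r₂) :
    v x ≤ ballMax 𝓜 g v o r₁ +
      (ballMax 𝓜 g v o r₂ - ballMax 𝓜 g v o r₁) / (Real.log r₂ - Real.log r₁) *
        (Real.log (hdist 𝓜 g o x) - Real.log r₁) := by
  have hden : 0 < Real.log r₂ - Real.log r₁ := sub_pos.2 (Real.log_lt_log h1 h12)
  have hmono := l6_ballMax_mono hv hp ho h1.le h12.le
  rcases hmono.eq_or_lt with he | hlt
  · rw [← he, sub_self, zero_div, zero_mul, add_zero, he]
    exact l6_le_ballMax hv hp ho ⟨hx, hx2⟩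
  · refine l6_annulus_pos hk hconn hp hb hv ho h1 (div_pos (sub_pos.2 hlt) hden) ?_ hx hx1 hx2
    rw [div_mul_cancel₀ _ hden.ne']
    linarith

theorem l6_three_circles (hk : IsKahler 𝓜 g) (hconn : IsConnected 𝓜.carrier)
    (hp : IsProperMetric 𝓜 g) (hb : BisecPos 𝓜 g) (hv : 𝓜.IsPshOn Set.univ v) (ho : o ∈ 𝓜.carrier)
    {r₁ r r₂ : ℝ} (h1 : 0 < r₁) (h1r : r₁ ≤ r) (hr2 : r ≤ r₂) (h12 : r₁ < r₂) :
    ballMax 𝓜 g v o r ≤ ballMax 𝓜 g v o r₁ +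
      (ballMax 𝓜 g v o r₂ - ballMax 𝓜 g v o r₁) / (Real.log r₂ - Real.log r₁) *
        (Real.log r - Real.log r₁) := by
  obtain ⟨x, hx, he⟩ := l6_ballMax_eq hv hp ho (h1.le.trans h1r)
  have hslope : 0 ≤ (ballMax 𝓜 g v o r₂ - ballMax 𝓜 g v o r₁) / (Real.log r₂ - Real.log r₁) :=
    div_nonneg (sub_nonneg.2 (l6_ballMax_mono hv hp ho h1.le h12.le))
      (sub_nonneg.2 (Real.log_le_log h1 h12.le))
  rw [← he]
  rcases le_total (hdist 𝓜 g o x) r₁ with hd | hd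
  · have h2 : v x ≤ ballMax 𝓜 g v o r₁ := l6_le_ballMax hv hp ho ⟨hx.1, hd⟩
    have h3 : 0 ≤ Real.log r - Real.log r₁ := sub_nonneg.2 (Real.log_le_log h1 h1r)
    have := mul_nonneg hslope h3
    linarith
  · have h2 := l6_annulus hk hconn hp hb hv ho h1 h12 hx.1 hd (hx.2.trans hr2)
    have h3 : Real.log (hdist 𝓜 g o x) - Real.log r₁ ≤ Real.log r - Real.log r₁ :=
      sub_le_sub_right (Real.log_le_log (h1.trans_le hd) hx.2) _
    have := mul_le_mul_of_nonneg_left h3 hslope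
    linarith

theorem l6_ballMax_const (hk : IsKahler 𝓜 g) (hconn : IsConnected 𝓜.carrier)
    (hp : IsProperMetric 𝓜 g) (hb : BisecPos 𝓜 g) (hv : 𝓜.IsPshOn Set.univ v) (ho : o ∈ 𝓜.carrier)
    {C : ℝ} (hC : ∀ x ∈ 𝓜.carrier, v x ≤ C) {r₁ r : ℝ} (h1 : 0 < r₁) (h1r : r₁ ≤ r) :
    ballMax 𝓜 g v o r = ballMax 𝓜 g v o r₁ := by
  refine le_antisymm ?_ (l6_ballMax_mono hv hp ho h1.le h1r)
  have hl : 0 ≤ Real.log r - Real.log r₁ := sub_nonneg.2 (Real.log_le_log h1 h1r)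
  have hCm : 0 ≤ C - ballMax 𝓜 g v o r₁ := sub_nonneg.2 (l6_ballMax_le hv hp ho hC h1.le)
  have hlim : Filter.Tendsto (fun r₂ : ℝ => ballMax 𝓜 g v o r₁ +
      (C - ballMax 𝓜 g v o r₁) / (Real.log r₂ - Real.log r₁) * (Real.log r - Real.log r₁))
      Filter.atTop (𝓝 (ballMax 𝓜 g v o r₁ + 0 * (Real.log r - Real.log r₁))) := by
    refine tendsto_const_nhds.add (Filter.Tendsto.mul_const _ ?_)
    refine Filter.Tendsto.div_atTop tendsto_const_nhds ?_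
    exact Filter.tendsto_atTop_add_const_right _ _ Real.tendsto_log_atTop
  rw [zero_mul, add_zero] at hlim
  refine ge_of_tendsto hlim ?_
  filter_upwards [Filter.eventually_gt_atTop r] with r₂ hr₂
  have h12 : r₁ < r₂ := h1r.trans_lt hr₂
  have h2 := l6_three_circles hk hconn hp hb hv ho h1 h1r hr₂.le h12
  have hden : 0 < Real.log r₂ - Real.log r₁ := sub_pos.2 (Real.log_lt_log h1 h12)
  have h3 : (ballMax 𝓜 g v o r₂ - ballMax 𝓜 g v o r₁) / (Real.log r₂ - Real.log r₁)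
      ≤ (C - ballMax 𝓜 g v o r₁) / (Real.log r₂ - Real.log r₁) :=
    div_le_div_of_nonneg_right
      (sub_le_sub_right (l6_ballMax_le hv hp ho hC (h1.le.trans h12.le)) _) hden.le
  have := mul_le_mul_of_nonneg_right h3 hl
  linarith

theorem l6_max_at_o (hk : IsKahler 𝓜 g) (hconn : IsConnected 𝓜.carrier)
    (hp : IsProperMetric 𝓜 g) (hb : BisecPos 𝓜 g) (hv : 𝓜.IsPshOn Set.univ v) (ho : o ∈ 𝓜.carrier)
    {C : ℝ} (hC : ∀ x ∈ 𝓜.carrier, v x ≤ C) : ∀ x ∈ 𝓜.carrier, v x ≤ v o := by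
  intro x hx
  have hconst : ∀ r r' : ℝ, 0 < r → 0 < r' → ballMax 𝓜 g v o r = ballMax 𝓜 g v o r' := by
    intro r r' hr hr'
    rcases le_total r r' with h | h
    · exact (l6_ballMax_const hk hconn hp hb hv ho hC hr h).symm
    · exact l6_ballMax_const hk hconn hp hb hv ho hC hr' h
  have h1 : v x ≤ ballMax 𝓜 g v o (max 1 (hdist 𝓜 g o x)) :=
    l6_le_ballMax hv hp ho ⟨hx, le_max_right _ _⟩
  refine le_of_forall_pos_le_add fun ε hε => ?_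
  have husc := l6_usc hv o ho (v o + ε) (by linarith)
  obtain ⟨ρ, hρ, hsub⟩ := (hasBasis_nhdsWithin_hball hk.toIsMetric hconn ho).mem_iff.1 husc
  obtain ⟨y, hy, he⟩ := l6_ballMax_eq hv hp ho (r := ρ / 2) (by positivity)
  have h2 : v y < v o + ε := hsub ⟨hy.1, hy.2.trans_lt (by linarith)⟩
  rw [hconst _ (ρ / 2) (lt_max_of_lt_left one_pos) (by positivity), ← he] at h1
  linarith

theorem pshOn_eq_of_max {U : Set (CE ι)} (hU : IsOpen U) {f : CE ι → ℝ} (hf : PshOn U f)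
    {z : CE ι} (hz : z ∈ U) (hmax : ∀ w ∈ U, f w ≤ f z) : ∀ᶠ w in 𝓝 z, f w = f z := by
  obtain ⟨r, hr, hrU⟩ := Metric.isOpen_iff.1 hU z hz
  filter_upwards [Metric.ball_mem_nhds z hr] with w hw
  exact PshOn.eqOn_of_isMaxOn (hf.mono hrU) Metric.isOpen_ball (convex_ball z r).isPreconnected
    (Metric.mem_ball_self hr) (fun y hy => hmax y (hrU hy)) w hw

theorem l6_const_of_max (hconn : IsConnected 𝓜.carrier) (hv : 𝓜.IsPshOn Set.univ v)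
    (ho : o ∈ 𝓜.carrier) (hmax : ∀ x ∈ 𝓜.carrier, v x ≤ v o) : ∀ x ∈ 𝓜.carrier, v x = v o :=
  CMfd.IsPshOn.eq_of_forall_le hconn.isPreconnected hv ho hmax

end

variable {V : Type} [NormedAddCommGroup V] [NormedSpace ℝ V] [FiniteDimensional ℝ V]
variable [MeasurableSpace V] [BorelSpace V]
variable {n : ℕ} {𝓜 : CMfd V (Fin n)} {g : HFam V (Fin n)}

/-- **Lemma 7.6** (psh Liouville). -/
theorem st76 : St76 𝓜 g := by
  intro I v hv ⟨C, hC⟩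
  obtain ⟨o, ho⟩ := I.conn.nonempty
  exact ⟨v o, l6_const_of_max I.conn hv ho
    (l6_max_at_o I.kahler I.conn I.proper I.bisec hv ho hC)⟩

end Claimed.Agent.R316
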